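import Vale.Agent.Lib.P331.Events

/-!
P331: the expectation lemma (L2) for the threshold rule, `E[T] ≤ 3 E[E0] + 2 E[EA]`,
proved by two pair swaps (independent version, everything inside the namespace `H14`).
-/

namespace Vale.Agent.Lib.P331
open Finset
noncomputable section
open Classical
variable {E : Type} [Fintype E] [DecidableEq E]

namespace H14

/-! ### Basic facts on `topS` -/

omit [DecidableEq E] in
theorem topS_eq (M : Matroid E) (S : E → ℝ) :
    topS M S = (((NL M).sup fun e => (S e).toNNReal : NNReal) : ℝ) := rfl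

omit [DecidableEq E] in
theorem topS_nonneg (M : Matroid E) (S : E → ℝ) : 0 ≤ topS M S := by
  rw [topS_eq]; exact NNReal.coe_nonneg _

omit [DecidableEq E] in
theorem le_topS (M : Matroid E) (S : E → ℝ) {e : E} (he : e ∈ NL M) : S e ≤ topS M S := by
  rw [topS_eq]
  have h1 : (S e).toNNReal ≤ (NL M).sup fun e => (S e).toNNReal :=
    Finset.le_sup (f := fun e => (S e).toNNReal) he
  exact le_trans (Real.le_coe_toNNReal (S e)) (NNReal.coe_le_coe.mpr h1)

omit [DecidableEq E] in
theorem topS_le (M : Matroid E) (S : E → ℝ) {c : ℝ} (hc : 0 ≤ c)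
    (h : ∀ e ∈ NL M, S e ≤ c) : topS M S ≤ c := by
  rw [topS_eq]
  have h1 : ((NL M).sup fun e => (S e).toNNReal) ≤ c.toNNReal :=
    Finset.sup_le fun e he => Real.toNNReal_le_toNNReal (h e he)
  calc (((NL M).sup fun e => (S e).toNNReal : NNReal) : ℝ) ≤ (c.toNNReal : ℝ) :=
        NNReal.coe_le_coe.mpr h1
    _ = c := Real.coe_toNNReal c hc

omit [DecidableEq E] in
theorem exists_eq_topS (M : Matroid E) (S : E → ℝ) (hS : ∀ e, 0 ≤ S e)
    (hne : (NL M).Nonempty) : ∃ e ∈ NL M, S e = topS M S := by
  obtain ⟨e, he, h⟩ := Finset.exists_mem_eq_sup (NL M) hne (fun e => (S e).toNNReal)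
  refine ⟨e, he, ?_⟩
  rw [topS_eq, h]
  exact (Real.coe_toNNReal (S e) (hS e)).symm

omit [DecidableEq E] in
theorem topS_eq_zero (M : Matroid E) (S : E → ℝ) (h : NL M = ∅) : topS M S = 0 := by
  rw [topS_eq, h]; simp

omit [DecidableEq E] in
theorem E0_def (M : Matroid E) (S V : E → ℝ) :
    E0 M S V = if ∃ e ∈ NL M, topS M S ≤ V e then topS M S else 0 := rfl

theorem EA_def (M : Matroid E) (S V : E → ℝ) :
    EA M S V = ∑ e ∈ NL M,
      if topS M S < V e ∧ ∀ e' ∈ NL M, e' ≠ e → V e' ≤ topS M S then V e else 0 := rfl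

/-! ### Weights, the expectation functional and the pair swap -/

variable {Ω : Type} [Fintype Ω]

/-- The expectation of a function of the vector of sample values and the vector of values. -/
def Ex (p val : E → Ω → ℝ) (G : (E → ℝ) → (E → ℝ) → ℝ) : ℝ :=
  ∑ s : E → Ω, ∑ v : E → Ω, wt p s * wt p v * G (vals val s) (vals val v)

omit [DecidableEq E] [Fintype Ω] in
theorem wt_nonneg (p : E → Ω → ℝ) (hp : ∀ e ω, 0 ≤ p e ω) (s : E → Ω) : 0 ≤ wt p s :=
  Finset.prod_nonneg fun e _ => hp e (s e)

omit [Fintype Ω] in
theorem wt_update (p : E → Ω → ℝ) (s : E → Ω) (e : E) (a : Ω) :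
    wt p (Function.update s e a) = p e a * ∏ x ∈ univ.erase e, p x (s x) := by
  have h : (fun f => p f (Function.update s e a f))
      = Function.update (fun f => p f (s f)) e (p e a) := by
    funext f
    by_cases hf : f = e
    · subst hf; simp
    · simp [Function.update_of_ne hf]
  show ∏ f, p f (Function.update s e a f) = _
  rw [h, Finset.prod_update_of_mem (Finset.mem_univ e), Finset.sdiff_singleton_eq_erase]

omit [Fintype Ω] in
theorem wt_split (p : E → Ω → ℝ) (s : E → Ω) (e : E) :
    wt p s = p e (s e) * ∏ x ∈ univ.erase e, p x (s x) := by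
  show ∏ f, p f (s f) = _
  exact (Finset.mul_prod_erase univ (fun f => p f (s f)) (Finset.mem_univ e)).symm

omit [Fintype E] [Fintype Ω] in
theorem vals_update (val : E → Ω → ℝ) (s : E → Ω) (e : E) (a : Ω) :
    vals val (Function.update s e a) = Function.update (vals val s) e (val e a) := by
  funext f
  show val f (Function.update s e a f) = Function.update (fun f => val f (s f)) e (val e a) f
  by_cases hf : f = e
  · subst hf; simp
  · simp [Function.update_of_ne hf]

/-- Swapping the sample and the value of the element `e`. -/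
def swapEquiv (e : E) : ((E → Ω) × (E → Ω)) ≃ ((E → Ω) × (E → Ω)) where
  toFun x := (Function.update x.1 e (x.2 e), Function.update x.2 e (x.1 e))
  invFun x := (Function.update x.1 e (x.2 e), Function.update x.2 e (x.1 e))
  left_inv x := by
    refine Prod.ext ?_ ?_ <;> simp
  right_inv x := by
    refine Prod.ext ?_ ?_ <;> simp

theorem Ex_swap (p val : E → Ω → ℝ) (G : (E → ℝ) → (E → ℝ) → ℝ) (e : E) :
    Ex p val G
      = Ex p val (fun S V => G (Function.update S e (V e)) (Function.update V e (S e))) := by
  have h1 : Ex p val G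
      = ∑ x : (E → Ω) × (E → Ω), wt p x.1 * wt p x.2 * G (vals val x.1) (vals val x.2) :=
    (Fintype.sum_prod_type' (fun s v => wt p s * wt p v * G (vals val s) (vals val v))).symm
  have h2 : Ex p val (fun S V => G (Function.update S e (V e)) (Function.update V e (S e)))
      = ∑ x : (E → Ω) × (E → Ω), wt p x.1 * wt p x.2 *
          G (Function.update (vals val x.1) e (vals val x.2 e))
            (Function.update (vals val x.2) e (vals val x.1 e)) :=
    (Fintype.sum_prod_type' (fun s v => wt p s * wt p v *
          G (Function.update (vals val s) e (vals val v e))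
            (Function.update (vals val v) e (vals val s e)))).symm
  rw [h1, h2, ← Equiv.sum_comp (swapEquiv (Ω := Ω) e)]
  refine Finset.sum_congr rfl ?_
  rintro ⟨s, v⟩ -
  show wt p (Function.update s e (v e)) * wt p (Function.update v e (s e)) *
      G (vals val (Function.update s e (v e))) (vals val (Function.update v e (s e)))
    = wt p s * wt p v * G (Function.update (vals val s) e (vals val v e))
        (Function.update (vals val v) e (vals val s e))
  rw [vals_update, vals_update, wt_update, wt_update, wt_split p s e, wt_split p v e]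
  have h3 : val e (v e) = vals val v e := rfl
  have h4 : val e (s e) = vals val s e := rfl
  rw [h3, h4]
  ring

theorem Ex_mono (p val : E → Ω → ℝ) (hp : ∀ e ω, 0 ≤ p e ω) (hval : ∀ e ω, 0 ≤ val e ω)
    {G G' : (E → ℝ) → (E → ℝ) → ℝ}
    (h : ∀ S V : E → ℝ, (∀ f, 0 ≤ S f) → (∀ f, 0 ≤ V f) → G S V ≤ G' S V) :
    Ex p val G ≤ Ex p val G' := by
  unfold Ex
  apply Finset.sum_le_sum; intro s _
  apply Finset.sum_le_sum; intro v _
  apply mul_le_mul_of_nonneg_left
  · exact h _ _ (fun f => hval f (s f)) (fun f => hval f (v f))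
  · exact mul_nonneg (wt_nonneg p hp s) (wt_nonneg p hp v)

theorem Ex_add (p val : E → Ω → ℝ) (G G' : (E → ℝ) → (E → ℝ) → ℝ) :
    Ex p val (fun S V => G S V + G' S V) = Ex p val G + Ex p val G' := by
  unfold Ex
  simp only [mul_add, Finset.sum_add_distrib]

theorem Ex_sum (p val : E → Ω → ℝ) {ι : Type} (t : Finset ι)
    (G : ι → (E → ℝ) → (E → ℝ) → ℝ) :
    Ex p val (fun S V => ∑ i ∈ t, G i S V) = ∑ i ∈ t, Ex p val (G i) := by
  unfold Ex
  simp only [Finset.mul_sum]
  rw [show (∑ s : E → Ω, ∑ v : E → Ω, ∑ i ∈ t,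
        wt p s * wt p v * G i (vals val s) (vals val v))
      = ∑ s : E → Ω, ∑ i ∈ t, ∑ v : E → Ω,
        wt p s * wt p v * G i (vals val s) (vals val v)
      from Finset.sum_congr rfl (fun s _ => Finset.sum_comm)]
  exact Finset.sum_comm

/-! ### The pointwise events -/

/-- `e` carries the largest sample and this sample beats every value. -/
def hfun (M : Matroid E) (S V : E → ℝ) (e : E) : ℝ :=
  if (∀ f ∈ NL M, f ≠ e → S f ≤ S e) ∧ (∀ f ∈ NL M, V f < S e) then S e else 0

/-- The value of `e` is strictly the largest value, beats its own sample and is at least every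
other sample. -/
def Q (M : Matroid E) (S V : E → ℝ) (e : E) : Prop :=
  (∀ f ∈ NL M, f ≠ e → S f ≤ V e) ∧ S e < V e ∧ (∀ f ∈ NL M, f ≠ e → V f < V e)

/-- Every other value is at most the largest sample. -/
def Good (M : Matroid E) (S V : E → ℝ) (e : E) : Prop :=
  ∀ g ∈ NL M, g ≠ e → V g ≤ topS M S

/-- `g` carries the largest value other than that of `e`, and it is above the largest sample. -/
def Bad (M : Matroid E) (S V : E → ℝ) (e g : E) : Prop :=
  Q M S V e ∧ topS M S < V g ∧ ∀ h ∈ NL M, h ≠ e → V h ≤ V g

/-- `g` carries strictly the largest sample. -/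
def Ustr (M : Matroid E) (S : E → ℝ) (g : E) : Prop :=
  ∀ f ∈ NL M, f ≠ g → S f < S g

theorem hfun_nonneg (M : Matroid E) (S V : E → ℝ) (hS : ∀ f, 0 ≤ S f) (e : E) :
    0 ≤ hfun M S V e := by
  unfold hfun
  split_ifs
  · exact hS e
  · exact le_refl _

theorem step1 (M : Matroid E) (S V : E → ℝ) (hS : ∀ f, 0 ≤ S f) :
    topS M S ≤ E0 M S V + ∑ e ∈ NL M, hfun M S V e := by
  have hsum : 0 ≤ ∑ e ∈ NL M, hfun M S V e :=
    Finset.sum_nonneg fun e _ => hfun_nonneg M S V hS e
  rw [E0_def]
  by_cases hex : ∃ e ∈ NL M, topS M S ≤ V e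
  · rw [if_pos hex]; linarith
  · rw [if_neg hex]
    push Not at hex
    by_cases hne : (NL M).Nonempty
    · obtain ⟨e, he, hSe⟩ := exists_eq_topS M S hS hne
      have hval : hfun M S V e = S e := by
        unfold hfun
        rw [if_pos]
        refine ⟨fun f hf _ => ?_, fun f hf => ?_⟩
        · rw [hSe]; exact le_topS M S hf
        · rw [hSe]; exact hex f hf
      have hle : hfun M S V e ≤ ∑ e ∈ NL M, hfun M S V e :=
        Finset.single_le_sum (f := fun e => hfun M S V e)
          (fun i _ => hfun_nonneg M S V hS i) he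
      rw [hval, hSe] at hle
      linarith
    · rw [Finset.not_nonempty_iff_eq_empty] at hne
      rw [topS_eq_zero M S hne, hne]
      simp

theorem step2 (M : Matroid E) (S V : E → ℝ) {e : E} (he : e ∈ NL M) :
    hfun M (Function.update S e (V e)) (Function.update V e (S e)) e
      = if Q M S V e then V e else 0 := by
  have hiff : ((∀ f ∈ NL M, f ≠ e →
        Function.update S e (V e) f ≤ Function.update S e (V e) e) ∧
      (∀ f ∈ NL M, Function.update V e (S e) f < Function.update S e (V e) e))
      ↔ Q M S V e := by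
    constructor
    · rintro ⟨h1, h2⟩
      refine ⟨fun f hf hfe => ?_, ?_, fun f hf hfe => ?_⟩
      · have h := h1 f hf hfe
        rwa [Function.update_of_ne hfe, Function.update_self] at h
      · have h := h2 e he
        rwa [Function.update_self, Function.update_self] at h
      · have h := h2 f hf
        rwa [Function.update_of_ne hfe, Function.update_self] at h
    · rintro ⟨h1, h2, h3⟩
      refine ⟨fun f hf hfe => ?_, fun f hf => ?_⟩
      · rw [Function.update_of_ne hfe, Function.update_self]; exact h1 f hf hfe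
      · by_cases hfe : f = e
        · rw [hfe, Function.update_self, Function.update_self]; exact h2
        · rw [Function.update_of_ne hfe, Function.update_self]; exact h3 f hf hfe
  unfold hfun
  by_cases hQ : Q M S V e
  · rw [if_pos (hiff.mpr hQ), if_pos hQ, Function.update_self]
  · rw [if_neg (fun h => hQ (hiff.mp h)), if_neg hQ]

theorem step3 (M : Matroid E) (S V : E → ℝ) (e : E) (hVe : 0 ≤ V e) :
    (if Q M S V e ∧ ¬ Good M S V e then V e else 0)
      ≤ ∑ g ∈ (NL M).erase e, if Bad M S V e g then V e else 0 := by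
  have hnn : ∀ g ∈ (NL M).erase e, 0 ≤ (if Bad M S V e g then V e else 0) := by
    intro g _
    split_ifs
    · exact hVe
    · exact le_refl _
  by_cases h : Q M S V e ∧ ¬ Good M S V e
  · rw [if_pos h]
    obtain ⟨hQ, hG⟩ := h
    unfold Good at hG
    push Not at hG
    obtain ⟨g0, hg0, hg0e, hg0T⟩ := hG
    have hne : ((NL M).erase e).Nonempty := ⟨g0, Finset.mem_erase.mpr ⟨hg0e, hg0⟩⟩
    obtain ⟨g, hg, hmax⟩ := Finset.exists_max_image ((NL M).erase e) V hne
    have hbad : Bad M S V e g := by
      refine ⟨hQ, ?_, fun h hh hhe => hmax h (Finset.mem_erase.mpr ⟨hhe, hh⟩)⟩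
      exact lt_of_lt_of_le hg0T (hmax g0 (Finset.mem_erase.mpr ⟨hg0e, hg0⟩))
    have hle := Finset.single_le_sum (f := fun g => if Bad M S V e g then V e else 0) hnn hg
    simp only [if_pos hbad] at hle
    exact hle
  · rw [if_neg h]
    exact Finset.sum_nonneg hnn

theorem step4core (M : Matroid E) (S V : E → ℝ) (hS : ∀ f, 0 ≤ S f) {e g : E}
    (hg : g ∈ NL M) (hge : g ≠ e)
    (hb : Bad M (Function.update S g (V g)) (Function.update V g (S g)) e g) :
    Q M S V e ∧ Good M S V e ∧ Ustr M S g := by
  obtain ⟨⟨hq1, hq2, hq3⟩, hT, hmax⟩ := hb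
  have heg : e ≠ g := Ne.symm hge
  rw [Function.update_self] at hT
  rw [Function.update_of_ne heg, Function.update_of_ne heg] at hq2
  have hU : Ustr M S g := by
    intro f hf hfg
    have h := le_topS M (Function.update S g (V g)) hf
    rw [Function.update_of_ne hfg] at h
    linarith
  have hVg : V g < S g := by
    have h := le_topS M (Function.update S g (V g)) hg
    rw [Function.update_self] at h
    linarith
  have hTS : topS M S = S g := by
    apply le_antisymm
    · refine topS_le M S (hS g) (fun f hf => ?_)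
      by_cases hfg : f = g
      · rw [hfg]
      · exact le_of_lt (hU f hf hfg)
    · exact le_topS M S hg
  have hSgVe : S g < V e := by
    have h := hq3 g hg hge
    rwa [Function.update_self, Function.update_of_ne heg] at h
  refine ⟨⟨?_, hq2, ?_⟩, ?_, hU⟩
  · intro f hf hfe
    by_cases hfg : f = g
    · rw [hfg]; exact le_of_lt hSgVe
    · have h := hq1 f hf hfe
      rwa [Function.update_of_ne hfg, Function.update_of_ne heg] at h
  · intro f hf hfe
    by_cases hfg : f = g
    · rw [hfg]; linarith
    · have h := hq3 f hf hfe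
      rwa [Function.update_of_ne hfg, Function.update_of_ne heg] at h
  · intro h hh hhe
    rw [hTS]
    by_cases hhg : h = g
    · rw [hhg]; exact le_of_lt hVg
    · have h' := hmax h hh hhe
      rwa [Function.update_of_ne hhg, Function.update_self] at h'

theorem step4 (M : Matroid E) (S V : E → ℝ) (hS : ∀ f, 0 ≤ S f) (hV : ∀ f, 0 ≤ V f)
    {e g : E} (hg : g ∈ NL M) (hge : g ≠ e) :
    (if Bad M (Function.update S g (V g)) (Function.update V g (S g)) e g
        then Function.update V g (S g) e else 0)
      ≤ if Q M S V e ∧ Good M S V e ∧ Ustr M S g then V e else 0 := by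
  by_cases hb : Bad M (Function.update S g (V g)) (Function.update V g (S g)) e g
  · rw [if_pos hb, if_pos (step4core M S V hS hg hge hb),
      Function.update_of_ne (Ne.symm hge)]
  · rw [if_neg hb]
    split_ifs
    · exact hV e
    · exact le_refl _

theorem step5 (M : Matroid E) (S V : E → ℝ) (e : E) (hVe : 0 ≤ V e) :
    (∑ g ∈ (NL M).erase e, if Q M S V e ∧ Good M S V e ∧ Ustr M S g then V e else 0)
      ≤ if Q M S V e ∧ Good M S V e then V e else 0 := by
  by_cases hQG : Q M S V e ∧ Good M S V e
  · rw [if_pos hQG]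
    by_cases hex : ∃ g1 ∈ (NL M).erase e, Ustr M S g1
    · obtain ⟨g1, hg1, hU1⟩ := hex
      rw [Finset.sum_eq_single_of_mem g1 hg1]
      · rw [if_pos ⟨hQG.1, hQG.2, hU1⟩]
      · intro b hb hbg
        rw [if_neg]
        rintro ⟨-, -, hUb⟩
        have h1 := hUb g1 (Finset.mem_of_mem_erase hg1) (Ne.symm hbg)
        have h2 := hU1 b (Finset.mem_of_mem_erase hb) hbg
        linarith
    · push Not at hex
      rw [Finset.sum_eq_zero]
      · exact hVe
      · intro g hg
        rw [if_neg]
        rintro ⟨-, -, hUg⟩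
        exact hex g hg hUg
  · rw [if_neg hQG, Finset.sum_eq_zero]
    intro g _
    rw [if_neg]
    rintro ⟨h1, h2, -⟩
    exact hQG ⟨h1, h2⟩

omit [DecidableEq E] in
theorem E0_nonneg (M : Matroid E) (S V : E → ℝ) : 0 ≤ E0 M S V := by
  rw [E0_def]
  split_ifs
  · exact topS_nonneg M S
  · exact le_refl _

theorem EA_term_nonneg (M : Matroid E) (S V : E → ℝ) (hV : ∀ f, 0 ≤ V f) (e : E) :
    0 ≤ (if topS M S < V e ∧ ∀ e' ∈ NL M, e' ≠ e → V e' ≤ topS M S then V e else 0) := by
  split_ifs
  · exact hV e
  · exact le_refl _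

theorem EA_nonneg (M : Matroid E) (S V : E → ℝ) (hV : ∀ f, 0 ≤ V f) : 0 ≤ EA M S V := by
  rw [EA_def]
  exact Finset.sum_nonneg fun e _ => EA_term_nonneg M S V hV e

theorem step6 (M : Matroid E) (S V : E → ℝ) (hV : ∀ f, 0 ≤ V f) :
    (∑ e ∈ NL M, if Q M S V e ∧ Good M S V e then V e else 0) ≤ E0 M S V + EA M S V := by
  have h0 := E0_nonneg M S V
  have hA := EA_nonneg M S V hV
  by_cases hex : ∃ e1 ∈ NL M, Q M S V e1 ∧ Good M S V e1
  · obtain ⟨e1, he1, hQ, hG⟩ := hex
    rw [Finset.sum_eq_single_of_mem e1 he1]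
    · rw [if_pos ⟨hQ, hG⟩]
      have hTle : topS M S ≤ V e1 := by
        refine topS_le M S (hV e1) (fun f hf => ?_)
        by_cases hfe : f = e1
        · rw [hfe]; exact le_of_lt hQ.2.1
        · exact hQ.1 f hf hfe
      rcases lt_or_eq_of_le hTle with hlt | heq
      · have hterm : V e1 ≤ EA M S V := by
          rw [EA_def]
          have hle := Finset.single_le_sum
            (f := fun e => if topS M S < V e ∧ ∀ e' ∈ NL M, e' ≠ e → V e' ≤ topS M S
              then V e else 0)
            (fun i _ => EA_term_nonneg M S V hV i) he1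
          simp only [if_pos (show topS M S < V e1 ∧ ∀ e' ∈ NL M, e' ≠ e1 → V e' ≤ topS M S
            from ⟨hlt, hG⟩)] at hle
          exact hle
        linarith
      · have hE0 : E0 M S V = topS M S := by
          rw [E0_def, if_pos ⟨e1, he1, hTle⟩]
        linarith
    · intro b hb hbe
      rw [if_neg]
      rintro ⟨hQb, -⟩
      have h1 := hQb.2.2 e1 he1 (Ne.symm hbe)
      have h2 := hQ.2.2 b hb hbe
      linarith
  · push Not at hex
    rw [Finset.sum_eq_zero]
    · linarith
    · intro e he
      rw [if_neg]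
      rintro ⟨h1, h2⟩
      exact hex e he h1 h2

/-! ### The expectation lemma -/

theorem Ex_T_le (M : Matroid E) (p val : E → Ω → ℝ)
    (hp : ∀ e ω, 0 ≤ p e ω) (hval : ∀ e ω, 0 ≤ val e ω) :
    Ex p val (fun S _ => topS M S)
      ≤ 3 * Ex p val (fun S V => E0 M S V) + 2 * Ex p val (fun S V => EA M S V) := by
  have hA : Ex p val (fun S _ => topS M S)
      ≤ Ex p val (fun S V => E0 M S V) + ∑ e ∈ NL M, Ex p val (fun S V => hfun M S V e) := by
    rw [← Ex_sum, ← Ex_add]
    exact Ex_mono p val hp hval (fun S V hS _ => step1 M S V hS)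
  have hB : ∀ e ∈ NL M, Ex p val (fun S V => hfun M S V e)
      = Ex p val (fun S V => if Q M S V e then V e else 0) := by
    intro e he
    rw [Ex_swap p val _ e]
    congr 1
    funext S V
    exact step2 M S V he
  have hC : ∀ e ∈ NL M, Ex p val (fun S V => if Q M S V e then V e else 0)
      ≤ 2 * Ex p val (fun S V => if Q M S V e ∧ Good M S V e then V e else 0) := by
    intro e _
    have h1 : Ex p val (fun S V => if Q M S V e then V e else 0)
        = Ex p val (fun S V => if Q M S V e ∧ Good M S V e then V e else 0)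
          + Ex p val (fun S V => if Q M S V e ∧ ¬ Good M S V e then V e else 0) := by
      rw [← Ex_add]
      congr 1
      funext S V
      by_cases hQ : Q M S V e <;> by_cases hG : Good M S V e <;> simp [hQ, hG]
    have h2 : Ex p val (fun S V => if Q M S V e ∧ ¬ Good M S V e then V e else 0)
        ≤ Ex p val (fun S V => if Q M S V e ∧ Good M S V e then V e else 0) := by
      calc Ex p val (fun S V => if Q M S V e ∧ ¬ Good M S V e then V e else 0)
          ≤ Ex p val (fun S V => ∑ g ∈ (NL M).erase e, if Bad M S V e g then V e else 0) :=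
            Ex_mono p val hp hval (fun S V _ hV => step3 M S V e (hV e))
        _ = ∑ g ∈ (NL M).erase e, Ex p val (fun S V => if Bad M S V e g then V e else 0) :=
            Ex_sum p val _ _
        _ = ∑ g ∈ (NL M).erase e, Ex p val (fun S V =>
              if Bad M (Function.update S g (V g)) (Function.update V g (S g)) e g
                then Function.update V g (S g) e else 0) :=
            Finset.sum_congr rfl (fun g _ => Ex_swap p val _ g)
        _ ≤ ∑ g ∈ (NL M).erase e, Ex p val (fun S V =>
              if Q M S V e ∧ Good M S V e ∧ Ustr M S g then V e else 0) := by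
            apply Finset.sum_le_sum
            intro g hg
            apply Ex_mono p val hp hval
            intro S V hS hV
            exact step4 M S V hS hV (Finset.mem_of_mem_erase hg) (Finset.ne_of_mem_erase hg)
        _ = Ex p val (fun S V => ∑ g ∈ (NL M).erase e,
              if Q M S V e ∧ Good M S V e ∧ Ustr M S g then V e else 0) :=
            (Ex_sum p val _ _).symm
        _ ≤ Ex p val (fun S V => if Q M S V e ∧ Good M S V e then V e else 0) :=
            Ex_mono p val hp hval (fun S V _ hV => step5 M S V e (hV e))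
    linarith
  have hD : ∑ e ∈ NL M, Ex p val (fun S V => if Q M S V e ∧ Good M S V e then V e else 0)
      ≤ Ex p val (fun S V => E0 M S V) + Ex p val (fun S V => EA M S V) := by
    rw [← Ex_sum, ← Ex_add]
    exact Ex_mono p val hp hval (fun S V _ hV => step6 M S V hV)
  have hBC : ∑ e ∈ NL M, Ex p val (fun S V => hfun M S V e)
      ≤ 2 * ∑ e ∈ NL M, Ex p val (fun S V => if Q M S V e ∧ Good M S V e then V e else 0) := by
    rw [Finset.mul_sum]
    apply Finset.sum_le_sum
    intro e he
    rw [hB e he]
    exact hC e he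
  linarith

/-- The expectation lemma (L2): `E[T] ≤ 3 E[E0] + 2 E[EA]`. -/
theorem exp_T_le (M : Matroid E) {Ω : Type} [Fintype Ω] (p val : E → Ω → ℝ)
    (hp : ∀ e ω, 0 ≤ p e ω) (hval : ∀ e ω, 0 ≤ val e ω) :
    ∑ s : E → Ω, ∑ v : E → Ω, wt p s * wt p v * topS M (vals val s)
      ≤ 3 * ∑ s : E → Ω, ∑ v : E → Ω, wt p s * wt p v * E0 M (vals val s) (vals val v)
        + 2 * ∑ s : E → Ω, ∑ v : E → Ω, wt p s * wt p v * EA M (vals val s) (vals val v) :=
  Ex_T_le M p val hp hval

end H14

end

end Vale.Agent.Lib.P331
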